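import Vale.Agent.P186.Hyp.Bridge

/-! # P186: assembly (helper6). A torsion-free word-hyperbolic group which is not residually finite. -/

namespace Vale.Agent.P186.Final

open Vale.Agent.P201.S Vale.Agent.P186.Hyp

/-- OUTPUT wanted from P194 (captain helper872): a matching group of the machine whose group algebra over `F_2` is not directly finite,
with the linear isoperimetric inequality -/
def Data : Prop := ∃ (S : Sys) (σ : Equiv.Perm S.C) (e1 : ℝ) (_ : 0 < e1) (Y : ℕ),
  (∀ g : Gp σ, ∀ m : ℕ, 0 < m → g ^ m = 1 → g = 1) ∧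
  (∀ l : List (Let S × Bool), PresentedGroup.mk (rels σ) (val l) = 1 →
    ∃ k z, Expr σ k (val l) z ∧ e1 / 2 * k ≤ wtw Y l) ∧
  ∃ a b : MonoidAlgebra (ZMod 2) (Gp σ), a * b = 1 ∧ b * a ≠ 1

/-- residually finite groups have directly finite group algebras over `F_2` (helper188) -/
def RFStmt : Prop := ∀ (G : Type) [Group G], Group.ResiduallyFinite G → ∀ a b : MonoidAlgebra (ZMod 2) G,
  a * b = 1 → b * a = 1

theorem assemble (hD : Data) (h1 : LinStmt) (h2 : GraphStmt) (h3 : ConnStmt) (h4 : RFStmt) :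
    ∃ (G : Type) (_ : Group G), (∀ g : G, ∀ m : ℕ, 0 < m → g ^ m = 1 → g = 1) ∧
      Vale.Agent.P186.IsHyperbolicGroup G ∧ ¬ Group.ResiduallyFinite G := by
  obtain ⟨S, σ, e1, he1, Y, htf, hlin, a, b, hab, hba⟩ := hD
  exact ⟨Gp σ, inferInstance, htf, hyperbolic_machine h1 h2 h3 σ e1 he1 Y hlin,
    fun hrf => hba (h4 (Gp σ) hrf a b hab)⟩

end Vale.Agent.P186.Final
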