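import Vale.Agent.P186.Final.Main
import Vale.Agent.P194.M.Main
import Vale.Agent.P201.S.Tor

/-! # P186 from the two statements of the machine (helper6) -/

namespace Vale.Agent.P186.Final

/-- the final theorem of P186 from the two main statements of the machine -/
theorem of_machine (hL : Vale.Agent.P201.S.StmtLoc) (hG : Vale.Agent.P201.S.StmtGlob) :
    ∃ (G : Type) (_ : Group G), (∀ g : G, ∀ m : ℕ, 0 < m → g ^ m = 1 → g = 1) ∧
      Vale.Agent.P186.IsHyperbolicGroup G ∧ ¬ Group.ResiduallyFinite G :=
  main (Vale.Agent.P194.M.data hL hG Vale.Agent.P201.S.stmtTor)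

end Vale.Agent.P186.Final
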