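import Vale.Agent.P186.Final.Asm
import Vale.Agent.P186.Hyp.Lin
import Vale.Agent.P186.Hyp.Graph
import Vale.Agent.P186.Hyp.Conn
import Vale.Agent.P186.Hyp.RF

/-! # P186: everything except the data (helper6) -/

namespace Vale.Agent.P186.Final

/-- the final theorem of P186 from the data of P194 -/
theorem main (hD : Data) : ∃ (G : Type) (_ : Group G),
    (∀ g : G, ∀ m : ℕ, 0 < m → g ^ m = 1 → g = 1) ∧
      Vale.Agent.P186.IsHyperbolicGroup G ∧ ¬ Group.ResiduallyFinite G :=
  assemble hD Hyp.lin Hyp.graph Hyp.conn Hyp.rf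

end Vale.Agent.P186.Final
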